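import Mathlib.Logic.Relation
import Mathlib.Data.Nat.Notation

/-! Pure type systems, with de Bruijn indices for variables. -/

namespace Vale.Agent.P340

universe u

/-- A pure type specification on a set `S` of sorts: axioms and rules. -/
structure Spec (S : Type u) where
  ax : S → S → Prop
  rule : S → S → S → Prop

/-- Expressions modulo renaming of bound variables (de Bruijn indices).
`lam A M` and `pi A B` bind index 0 in their second argument. -/
inductive Term (S : Type u) : Type u
  | var : ℕ → Term S
  | sort : S → Term S
  | app : Term S → Term S → Term S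
  | lam : Term S → Term S → Term S
  | pi : Term S → Term S → Term S

variable {S : Type u}

/-- Lift a renaming under a binder. -/
def upRen (ξ : ℕ → ℕ) : ℕ → ℕ
  | 0 => 0
  | n + 1 => ξ n + 1

/-- Rename the free variables. -/
def Term.rename (ξ : ℕ → ℕ) : Term S → Term S
  | .var n => .var (ξ n)
  | .sort s => .sort s
  | .app M N => .app (M.rename ξ) (N.rename ξ)
  | .lam A M => .lam (A.rename ξ) (M.rename (upRen ξ))
  | .pi A B => .pi (A.rename ξ) (B.rename (upRen ξ))

/-- Shift all free variables by one (used when a fresh variable is appended). -/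
def Term.shift (M : Term S) : Term S := M.rename Nat.succ

/-- Lift a substitution under a binder. -/
def upSub (σ : ℕ → Term S) : ℕ → Term S
  | 0 => .var 0
  | n + 1 => (σ n).shift

/-- Capture-avoiding simultaneous substitution. -/
def Term.subst (σ : ℕ → Term S) : Term S → Term S
  | .var n => σ n
  | .sort s => .sort s
  | .app M N => .app (M.subst σ) (N.subst σ)
  | .lam A M => .lam (A.subst σ) (M.subst (upSub σ))
  | .pi A B => .pi (A.subst σ) (B.subst (upSub σ))

/-- The substitution sending index 0 to `N` and index `n + 1` to index `n`. -/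
def single (N : Term S) : ℕ → Term S
  | 0 => N
  | n + 1 => .var n

/-- `M.inst N` is `M[x := N]` for the bound variable `x` (index 0) of the body `M`. -/
def Term.inst (M N : Term S) : Term S := M.subst (single N)

/-- One step of beta reduction, in any subexpression (domains included). -/
inductive Step : Term S → Term S → Prop
  | beta (A M N : Term S) : Step (.app (.lam A M) N) (M.inst N)
  | appL {M M' : Term S} (N : Term S) : Step M M' → Step (.app M N) (.app M' N)
  | appR (M : Term S) {N N' : Term S} : Step N N' → Step (.app M N) (.app M N')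
  | lamL {A A' : Term S} (M : Term S) : Step A A' → Step (.lam A M) (.lam A' M)
  | lamR (A : Term S) {M M' : Term S} : Step M M' → Step (.lam A M) (.lam A M')
  | piL {A A' : Term S} (B : Term S) : Step A A' → Step (.pi A B) (.pi A' B)
  | piR (A : Term S) {B B' : Term S} : Step B B' → Step (.pi A B) (.pi A B')

/-- The typing relation. A context is a list whose head is the last declared variable. -/
inductive Typed (P : Spec S) : List (Term S) → Term S → Term S → Prop
  | ax {s₁ s₂ : S} : P.ax s₁ s₂ → Typed P [] (.sort s₁) (.sort s₂)
  | var {Γ : List (Term S)} {A : Term S} {s : S} :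
      Typed P Γ A (.sort s) → Typed P (A :: Γ) (.var 0) A.shift
  | weak {Γ : List (Term S)} {M B A : Term S} {s : S} :
      Typed P Γ M B → Typed P Γ A (.sort s) → Typed P (A :: Γ) M.shift B.shift
  | pi {Γ : List (Term S)} {A B : Term S} {s₁ s₂ s₃ : S} :
      Typed P Γ A (.sort s₁) → Typed P (A :: Γ) B (.sort s₂) → P.rule s₁ s₂ s₃ →
      Typed P Γ (.pi A B) (.sort s₃)
  | lam {Γ : List (Term S)} {A M B : Term S} {s : S} :
      Typed P (A :: Γ) M B → Typed P Γ (.pi A B) (.sort s) → Typed P Γ (.lam A M) (.pi A B)
  | app {Γ : List (Term S)} {M N A B : Term S} :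
      Typed P Γ M (.pi A B) → Typed P Γ N A → Typed P Γ (.app M N) (B.inst N)
  | conv {Γ : List (Term S)} {M A B : Term S} {s : S} :
      Typed P Γ M A → Typed P Γ B (.sort s) → Relation.EqvGen Step A B → Typed P Γ M B

/-- A legal expression is the subject or the type of a derivable judgment, in some context. -/
def Legal (P : Spec S) (M : Term S) : Prop :=
  ∃ (Γ : List (Term S)) (A : Term S), Typed P Γ M A ∨ Typed P Γ A M

/-- Every legal expression reduces to a beta normal form. -/
def WeaklyNormalizing (P : Spec S) : Prop :=
  ∀ M, Legal P M → ∃ N, Relation.ReflTransGen Step M N ∧ ∀ N', ¬ Step N N'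

/-- No legal expression starts an infinite beta reduction sequence. -/
def StronglyNormalizing (P : Spec S) : Prop :=
  ∀ M, Legal P M → ¬ ∃ f : ℕ → Term S, f 0 = M ∧ ∀ n, Step (f n) (f (n + 1))

end Vale.Agent.P340
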